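import Vale.Agent.P141.H633.FlowV
import Vale.Agent.P141.H609.HZL

/-!
# P141, line (A): the flow pair of the C-step from the operator cap alone

`GF` : the number of a node; `flowD_node` : every dominated matrix (`hG` of `H609.PH_le_G`);
`flowD_phi` : the saturated matrix of `C` (every level); `flowD_sum` : the sum over `x₀` and the
nodes; `flowD` : `hqF` of `H609.tzX_lab`.
-/

namespace Vale.Agent.P141.H938

open Finset Matrix Vale.Agent.P075 Vale.Agent.P141.PL Vale.Agent.P141.PL.H588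
open Vale.Agent.P141.PL.H804 Vale.Agent.P141.H958 Vale.Agent.P141.H338
open Vale.Agent.P141.PL.H315 (avg avg_nonneg)
open Vale.Agent.P141.H420 (Nd Tr)
open Vale.Agent.P141.H633

noncomputable section

open scoped Classical

variable {κ : Type*} [Fintype κ] [DecidableEq κ] {L : ℕ} {e : κ → ℤ}

/-- The entries of `H h₁ Bᵀ`. -/
theorem entry (he : Function.Injective e) (hm : ∀ i, e i ∈ lbs L) {k : ℕ} (hk : 1 ≤ k)
    (r q p : ℤ) (c b : ℤ → ℤ → κ → ℝ) (i j : Ix (k + L)) :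
    (bl (k + L) (encR L fun lab w x => cu e (c w x) lab) r p *
      (hd (k + L) * (bl (k + L) (encR L fun lab y x => cu e (b y x) lab) q p)ᵀ)) i j =
      2 ^ L * ∑ x ∈ iv k p, hs k x * ∑ l, c (ix L (2 ^ (k + L) * r + val (k + L) i)) x l *
        b (ix L (2 ^ (k + L) * q + val (k + L) j)) x l := by
  have h2L : (0 : ℝ) < 2 ^ L := by positivity
  set F : ℤ → ℤ → ℝ := encR L fun lab w x => cu e (c w x) lab with hF
  have e1 : (bl (k + L) F r p *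
      (hd (k + L) * (bl (k + L) (encR L fun lab y x => cu e (b y x) lab) q p)ᵀ)) i j =
      ∑ x ∈ iv (k + L) p, F (2 ^ (k + L) * r + val (k + L) i) x * vf L e (fun l x => hs k x *
        (√(2 ^ L) * b (ix L (2 ^ (k + L) * q + val (k + L) j)) x l)) x := by
    rw [sum_iv (k + L) p, Matrix.mul_apply]
    refine sum_congr rfl fun a _ => ?_
    rw [H576.hd_eq (by omega) p, Matrix.diagonal_mul, Matrix.transpose_apply]
    have e2 : (bl (k + L) (encR L fun lab y x => cu e (b y x) lab) q p) j a =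
        √(2 ^ L) * cu e (b (ix L (2 ^ (k + L) * q + val (k + L) j))
          (ix L (2 ^ (k + L) * p + val (k + L) a))) (lb L (2 ^ (k + L) * p + val (k + L) a)) :=
      rfl
    have e3 : (bl (k + L) F r p) i a =
        F (2 ^ (k + L) * r + val (k + L) i) (2 ^ (k + L) * p + val (k + L) a) := rfl
    rw [e2, e3, H958.hs_add hk]
    unfold vf
    rw [cu_smul, cu_smul]
  rw [e1, sum_vf hm, mul_sum]
  refine sum_congr rfl fun x _ => ?_
  rw [mul_sum, mul_sum]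
  refine sum_congr rfl fun l _ => ?_
  rw [hF, encR_apply, ix_mk (hm l), lb_mk (hm l), cu_apply he]
  have hsq : √((2 : ℝ) ^ L) * √((2 : ℝ) ^ L) = 2 ^ L := Real.mul_self_sqrt h2L.le
  calc √(2 ^ L) * c (ix L (2 ^ (k + L) * r + val (k + L) i)) x l *
        (hs k x * (√(2 ^ L) * b (ix L (2 ^ (k + L) * q + val (k + L) j)) x l))
      = (√(2 ^ L) * √(2 ^ L)) * (hs k x * (c (ix L (2 ^ (k + L) * r + val (k + L) i)) x l *
        b (ix L (2 ^ (k + L) * q + val (k + L) j)) x l)) := by ring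
    _ = _ := by rw [hsq]

theorem tr_sq {n : Type*} [Fintype n] (M : Matrix n n ℝ) :
    (M * Mᵀ).trace = ∑ i, ∑ j, M i j ^ 2 := by
  unfold Matrix.trace
  refine sum_congr rfl fun i _ => ?_
  rw [diag_apply, Matrix.mul_apply]
  exact sum_congr rfl fun j _ => by rw [transpose_apply]; ring

/-- The trace of the pair. -/
theorem tr_pair (he : Function.Injective e) (hm : ∀ i, e i ∈ lbs L) {k : ℕ} (hk : 1 ≤ k)
    (r q p : ℤ) (c b : ℤ → ℤ → κ → ℝ) :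
    ((bl (k + L) (encR L fun lab w x => cu e (c w x) lab) r p *
      (hd (k + L) * (bl (k + L) (encR L fun lab y x => cu e (b y x) lab) q p)ᵀ)) *
      (bl (k + L) (encR L fun lab w x => cu e (c w x) lab) r p *
      (hd (k + L) * (bl (k + L) (encR L fun lab y x => cu e (b y x) lab) q p)ᵀ))ᵀ).trace =
      4 ^ L * (4 ^ L * ∑ w ∈ iv k r, ∑ y ∈ iv k q,
        (∑ x ∈ iv k p, hs k x * ∑ l, c w x l * b y x l) ^ 2) := by
  set g : ℤ → ℤ → ℝ := fun w y => (∑ x ∈ iv k p, hs k x * ∑ l, c w x l * b y x l) ^ 2 with hg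
  rw [tr_sq]
  have e4 : (4 : ℝ) ^ L = 2 ^ L * 2 ^ L := by rw [← mul_pow]; norm_num
  have e1 : 4 ^ L * ∑ w ∈ iv k r, ∑ y ∈ iv k q, g w y =
      ∑ w ∈ iv (k + L) r, ∑ y ∈ iv (k + L) q, g (ix L w) (ix L y) := by
    have e2 : ∀ w, ∑ y ∈ iv (k + L) q, g w (ix L y) = 2 ^ L * ∑ y ∈ iv k q, g w y := fun w =>
      sum_iv_ix L k q (g w)
    simp only [e2]
    rw [sum_iv_ix L k r fun w => 2 ^ L * ∑ y ∈ iv k q, g w y, ← mul_sum, e4]
    ring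
  rw [e1, mul_sum, sum_iv (k + L) r]
  refine sum_congr rfl fun i _ => ?_
  rw [mul_sum, sum_iv (k + L) q]
  refine sum_congr rfl fun j _ => ?_
  rw [entry he hm hk, mul_pow, e4, ← mul_pow]
  simp only [hg]
  ring

/-- The cap of a labelled block, dual form. -/
theorem cap_dual (he : Function.Injective e) (hm : ∀ i, e i ∈ lbs L) {k : ℕ} {q p : ℤ} {cB : ℝ}
    {b : ℤ → ℤ → κ → ℝ} (h : CapR L k q p cB fun lab y x => cu e (b y x) lab)
    (ψ : κ → ℤ → ℝ) :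
    ∑ y ∈ iv k q, (∑ x ∈ iv k p, ∑ i, ψ i x * b y x i) ^ 2 ≤
      (cB * 2 ^ k) ^ 2 * ∑ x ∈ iv k p, ∑ i, ψ i x ^ 2 := by
  set V : ℤ → ℝ := fun y => ∑ x ∈ iv k p, ∑ i, ψ i x * b y x i with hV
  have h1 := h (fun l x => cu e (fun i => ψ i x) l) V
  have e1 : ∑ x ∈ iv k p, ∑ l ∈ lbs L, ∑ y ∈ iv k q,
      cu e (fun i => ψ i x) l * V y * cu e (b y x) l = ∑ y ∈ iv k q, V y ^ 2 := by
    have e2 : ∀ x ∈ iv k p, ∑ l ∈ lbs L, ∑ y ∈ iv k q,
        cu e (fun i => ψ i x) l * V y * cu e (b y x) l =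
        ∑ y ∈ iv k q, V y * ∑ i, ψ i x * b y x i := by
      intro x _
      rw [sum_comm]
      refine sum_congr rfl fun y _ => ?_
      rw [← sum_cu_cu he hm, mul_sum]
      exact sum_congr rfl fun l _ => by ring
    rw [sum_congr rfl e2, sum_comm]
    refine sum_congr rfl fun y _ => ?_
    rw [← mul_sum, pow_two]
  have e3 : ∑ x ∈ iv k p, ∑ l ∈ lbs L, (cu e (fun i => ψ i x) l) ^ 2 =
      ∑ x ∈ iv k p, ∑ i, ψ i x ^ 2 := by
    refine sum_congr rfl fun x _ => ?_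
    have := sum_cu_cu he hm (fun i => ψ i x) fun i => ψ i x
    simpa only [← pow_two] using this
  rw [e1, e3] at h1
  set T := ∑ y ∈ iv k q, V y ^ 2 with hT
  have hT0 : 0 ≤ T := sum_nonneg fun y _ => sq_nonneg _
  rcases hT0.eq_or_lt with h0 | h0
  · rw [← h0]
    exact mul_nonneg (sq_nonneg _) (sum_nonneg fun x _ => sum_nonneg fun i _ => sq_nonneg _)
  · have h2 : T * T ≤ ((cB * 2 ^ k) ^ 2 * ∑ x ∈ iv k p, ∑ i, ψ i x ^ 2) * T := by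
      rw [← pow_two]
      exact h1
    exact le_of_mul_le_mul_right h2 h0

/-- **The number of a node.** -/
def GF (L : ℕ) (cB l : ℝ) (K : ℤ → ℕ → ℤ → Matrix κ κ ℝ) (Cv : ℤ → ℤ → κ → ℝ) (k : ℕ) (m : Pt) :
    ℝ :=
  4 ^ L * cB ^ 2 * ∑ w ∈ iv k m.1, ∑ x ∈ iv k m.2.2, nv (SfK l K k m.2.1 x *ᵥ Cv w x)

theorem GF_nonneg (L : ℕ) (cB l : ℝ) (K : ℤ → ℕ → ℤ → Matrix κ κ ℝ) (Cv : ℤ → ℤ → κ → ℝ)
    (k : ℕ) (m : Pt) : 0 ≤ GF L cB l K Cv k m := by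
  have : 0 ≤ ∑ w ∈ iv k m.1, ∑ x ∈ iv k m.2.2, nv (SfK l K k m.2.1 x *ᵥ Cv w x) :=
    sum_nonneg fun w _ => sum_nonneg fun x _ => nv_nonneg _
  unfold GF
  positivity

/-- **The node**: the whole block of `C`. -/
theorem flowD_full (he : Function.Injective e) (hm : ∀ i, e i ∈ lbs L) {N k : ℕ} (hk : 1 ≤ k)
    (hkN : k ≤ N) {l cB : ℝ} {G K : ℤ → ℕ → ℤ → Matrix κ κ ℝ} (hT : ∀ x, Tr l N (G x) (K x))
    {m : Pt} {b : ℕ → ℤ → ℤ → κ → ℝ}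
    (capB : CapR L k m.2.1 m.2.2 cB fun lab y x => cu e (b k y x) lab)
    (Cv : ℤ → ℤ → κ → ℝ) :
    (4 ^ (k + L) : ℝ)⁻¹ *
      ((bl (k + L) (encR L fun lab w x => cu e (Cv w x) lab) m.1 m.2.2 * YF L l e K b (k + L) m) *
      (bl (k + L) (encR L fun lab w x => cu e (Cv w x) lab) m.1 m.2.2 *
        YF L l e K b (k + L) m)ᵀ).trace ≤ GF L cB l K Cv k m := by
  unfold YF FB
  rw [Nat.add_sub_cancel]
  rw [tr_pair he hm hk m.1 m.2.1 m.2.2 Cv fun y x => SfK l K k m.2.1 x *ᵥ b k y x]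
  have hS : ∀ x, (SfK l K k m.2.1 x)ᵀ = SfK l K k m.2.1 x := by
    intro x
    have h1 := (hT x).nd (k := k - 1) (by omega) m.2.1
    rw [Nat.sub_add_cancel hk] at h1
    exact H420.tr_symm (Sf_herm h1)
  have h1 : ∀ w ∈ iv k m.1, ∑ y ∈ iv k m.2.1,
      (∑ x ∈ iv k m.2.2, hs k x * ∑ i, Cv w x i * (SfK l K k m.2.1 x *ᵥ b k y x) i) ^ 2 ≤
      (cB * 2 ^ k) ^ 2 * ∑ x ∈ iv k m.2.2, nv (SfK l K k m.2.1 x *ᵥ Cv w x) := by
    intro w _
    have h2 := cap_dual he hm capB fun i x => hs k x * (SfK l K k m.2.1 x *ᵥ Cv w x) i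
    have e1 : ∀ y x, ∑ i, hs k x * (SfK l K k m.2.1 x *ᵥ Cv w x) i * b k y x i =
        hs k x * ∑ i, Cv w x i * (SfK l K k m.2.1 x *ᵥ b k y x) i := by
      intro y x
      have e2 : Cv w x ⬝ᵥ (SfK l K k m.2.1 x *ᵥ b k y x) =
          (SfK l K k m.2.1 x *ᵥ Cv w x) ⬝ᵥ b k y x := by
        rw [dotProduct_mulVec, ← mulVec_transpose, hS]
      have e3 : ∑ i, Cv w x i * (SfK l K k m.2.1 x *ᵥ b k y x) i =
          ∑ i, (SfK l K k m.2.1 x *ᵥ Cv w x) i * b k y x i := e2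
      rw [e3, mul_sum]
      exact sum_congr rfl fun i _ => by ring
    have e4 : ∀ x, ∑ i, (hs k x * (SfK l K k m.2.1 x *ᵥ Cv w x) i) ^ 2 =
        nv (SfK l K k m.2.1 x *ᵥ Cv w x) := by
      intro x
      unfold nv
      refine sum_congr rfl fun i _ => ?_
      have h3 : hs k x ^ 2 = 1 := by
        unfold PL.hs
        split_ifs <;> norm_num
      rw [mul_pow, h3, one_mul]
    simp only [e1, e4] at h2
    exact h2
  have h3 := sum_le_sum h1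
  have h4 := mul_le_mul_of_nonneg_left h3
    (show (0 : ℝ) ≤ (4 ^ (k + L))⁻¹ * (4 ^ L * 4 ^ L) by positivity)
  refine le_trans (le_of_eq (by ring)) (h4.trans (le_of_eq ?_))
  unfold GF
  rw [← mul_sum, mul_pow, pow_add, show ((2 : ℝ) ^ k) ^ 2 = 4 ^ k by
    rw [← pow_mul, mul_comm, pow_mul]; norm_num]
  field_simp

/-- **The node**: every dominated matrix (`hG` of `H609.PH_le_G`). -/
theorem flowD_node (he : Function.Injective e) (hm : ∀ i, e i ∈ lbs L) {N k : ℕ} (hk : 1 ≤ k)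
    (hkN : k ≤ N) {l cB : ℝ} {G K : ℤ → ℕ → ℤ → Matrix κ κ ℝ} (hT : ∀ x, Tr l N (G x) (K x))
    {m : Pt} {b : ℕ → ℤ → ℤ → κ → ℝ}
    (capB : CapR L k m.2.1 m.2.2 cB fun lab y x => cu e (b k y x) lab)
    (Cv : ℤ → ℤ → κ → ℝ) (D : Matrix (Ix (k + L)) (Ix (k + L)) ℝ)
    (hD : ((bl (k + L) (encR L fun lab w x => cu e (Cv w x) lab) m.1 m.2.2)ᵀ *
      bl (k + L) (encR L fun lab w x => cu e (Cv w x) lab) m.1 m.2.2 - Dᵀ * D).PosSemidef) :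
    (4 ^ (k + L) : ℝ)⁻¹ * ((D * YF L l e K b (k + L) m) *
      (D * YF L l e K b (k + L) m)ᵀ).trace ≤ GF L cB l K Cv k m := by
  refine le_trans (mul_le_mul_of_nonneg_left ?_ (by positivity))
    (flowD_full he hm hk hkN hT capB Cv)
  rw [tr_gram, tr_gram]
  have h1 := trace_mul_nonneg hD (psd_mul_transpose (YF L l e K b (k + L) m))
  rw [Matrix.sub_mul, trace_sub] at h1
  linarith

/-- **The node**: the saturated matrix of `C`, every level. -/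
theorem flowD_phi (he : Function.Injective e) (hm : ∀ i, e i ∈ lbs L) {N k : ℕ} (hk : 1 ≤ k)
    (hkN : k ≤ N) {l cB : ℝ} {G K : ℤ → ℕ → ℤ → Matrix κ κ ℝ} (hT : ∀ x, Tr l N (G x) (K x))
    {m : Pt} {b : ℕ → ℤ → ℤ → κ → ℝ}
    (capB : CapR L k m.2.1 m.2.2 cB fun lab y x => cu e (b k y x) lab)
    (Cv : ℤ → ℤ → κ → ℝ) {cC : ℝ} (hC : 0 < cC) (ee : ℕ) :
    (cC / 2 ^ (ee - 1)) ^ 2 *
      (phi (gramC (lv cC ee * (4 ^ (k + L))⁻¹)
          (bl (k + L) (encR L fun lab w x => cu e (Cv w x) lab) m.1 m.2.2)) *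
        (YF L l e K b (k + L) m * (YF L l e K b (k + L) m)ᵀ)).trace ≤ GF L cB l K Cv k m := by
  have a2 := lv_pos hC ee
  have hi := inv_lv hC ee
  set sC : ℝ := cC / 2 ^ (ee - 1) with hsC
  have pC : 0 < sC := by positivity
  have hlv : lv cC ee = (sC ^ 2)⁻¹ := by rw [← hi, inv_inv]
  have hν : 0 < lv cC ee * ((4 : ℝ) ^ (k + L))⁻¹ := by positivity
  obtain ⟨D, h1, h2, -⟩ := H609.phi_split hν
    (bl (k + L) (encR L fun lab w x => cu e (Cv w x) lab) m.1 m.2.2)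
  refine le_trans (le_of_eq ?_) (flowD_node he hm hk hkN hT capB Cv D h2)
  rw [h1, tr_gram, Matrix.smul_mul, trace_smul, smul_eq_mul, hlv]
  field_simp

/-! ### The sum -/

theorem nv_smul (a : ℝ) (f : κ → ℝ) : nv (a • f) = a ^ 2 * nv f := by
  unfold nv
  rw [mul_sum]
  exact sum_congr rfl fun i _ => by rw [Pi.smul_apply, smul_eq_mul, mul_pow]

variable {N : ℕ} {R : Pt} {t₀ : ℤ} {c : ℤ → ℕ → ℤ} {s : ℤ → ℕ → Finset Pt}
  {l cB L₀ Λ M : ℝ} {Cv : ℤ → ℕ → ℤ → ℤ → κ → ℝ} {Z : ℤ → ℕ → ℤ → ℤ → ℝ}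
  {v : ℤ → ℤ → κ → ℝ} {G K : ℤ → ℕ → ℤ → Matrix κ κ ℝ}

/-- The potential of `v` against the flow matrix. -/
theorem pot_Sf {x : ℤ} {S : Matrix κ κ ℝ} {Λ : ℝ}
    (htop : ∀ ε : κ → ℝ, (avg (iv N R.1) fun w => (∑ i, ε i * v x w i) ^ 2) ≤ Λ * ∑ i, ε i ^ 2) :
    ∑ w ∈ iv N R.1, nv (S *ᵥ v x w) ≤ 2 ^ N * (Λ * (S * Sᵀ).trace) := by
  have h1 : ∀ i, ∑ w ∈ iv N R.1, (S *ᵥ v x w) i ^ 2 ≤ 2 ^ N * (Λ * ∑ j, S i j ^ 2) := by
    intro i
    have h2 := htop fun j => S i j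
    rw [avg_iv] at h2
    have h3 := mul_le_mul_of_nonneg_left h2 (show (0 : ℝ) ≤ 2 ^ N by positivity)
    rw [← mul_assoc, mul_inv_cancel₀ (by positivity), one_mul] at h3
    exact h3
  rw [tr_sq]
  unfold nv
  rw [sum_comm]
  refine (sum_le_sum fun i _ => h1 i).trans (le_of_eq ?_)
  rw [← mul_sum, ← mul_sum]

/-- **One scale, one pair of cells.** -/
theorem flowD_cell (hL : 0 ≤ L₀) {k : ℕ} (hkN : k ≤ N)
    (hcl : ∀ x y, ix k x = ix k y → c x k = c y k)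
    (hsl : ∀ x y, ix k x = ix k y → s x k = s y k)
    (hbx : ∀ x₀ ∈ iv N t₀, s x₀ k ⊆ bx3 N R k (c x₀ k))
    (hinj : ∀ x ∈ iv N t₀, ∀ y ∈ iv N t₀, c x k = c y k → ix k x = ix k y)
    (hC : ∀ x₀ ∈ iv N t₀, ∀ m ∈ s x₀ k, ∀ w ∈ iv k m.1, ∀ x ∈ iv k m.2.2,
      Cv x₀ k w x = Z x₀ k x w • v x w)
    (hZ : ∀ x₀ ∈ iv N t₀, ∀ m ∈ s x₀ k, ∀ w ∈ iv k m.1, ∀ x ∈ iv k m.2.2,
      (avg (iv k (ix k x₀)) fun z => Z z k x w ^ 2) ≤ L₀)
    (htop : ∀ x ∈ iv N R.2.2, ∀ ε : κ → ℝ,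
      (avg (iv N R.1) fun w => (∑ i, ε i * v x w i) ^ 2) ≤ Λ * ∑ i, ε i ^ 2)
    {p q : ℤ} (hp : p ∈ iv (N - k) R.2.2) :
    ∑ x₀ ∈ iv N t₀, (if (c x₀ k - p - q, q, p) ∈ s x₀ k then
      GF L cB l K (Cv x₀ k) k (c x₀ k - p - q, q, p) else 0) ≤
      4 ^ L * cB ^ 2 * (2 ^ k * L₀ * (2 ^ N * (Λ * ∑ x ∈ iv k p,
        (SfK l K k q x * (SfK l K k q x)ᵀ).trace))) := by
  -- representatives of the cells of `x₀`
  set cJ : ℤ → ℤ := fun J => c (2 ^ k * J) k with hcJ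
  set al : ℤ → Prop := fun J => (cJ J - p - q, q, p) ∈ s (2 ^ k * J) k with hal
  have hix : ∀ J z : ℤ, z ∈ iv k J → ix k z = ix k (2 ^ k * J) := by
    intro J z hz
    rw [mem_iv.1 hz]
    symm
    apply mem_iv.1
    unfold iv
    rw [mem_Ico]
    have : (0 : ℤ) < 2 ^ k := by positivity
    constructor <;> linarith
  have hcz : ∀ J z : ℤ, z ∈ iv k J → c z k = cJ J := fun J z hz => hcl _ _ (hix J z hz)
  have hsz : ∀ J z : ℤ, z ∈ iv k J → s z k = s (2 ^ k * J) k := fun J z hz => hsl _ _ (hix J z hz)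
  have hzN : ∀ J ∈ iv (N - k) t₀, ∀ z ∈ iv k J, z ∈ iv N t₀ := by
    intro J hJ z hz
    rw [mem_iv] at hJ hz ⊢
    rw [show N = k + (N - k) by omega, ← ix_ix, hz, hJ]
  have hrep : ∀ J : ℤ, (2 ^ k * J : ℤ) ∈ iv k J := by
    intro J
    unfold iv
    rw [mem_Ico]
    have : (0 : ℤ) < 2 ^ k := by positivity
    constructor <;> linarith
  have hpN : ∀ x ∈ iv k p, x ∈ iv N R.2.2 := by
    intro x hx
    rw [mem_iv] at hp hx ⊢
    rw [show N = k + (N - k) by omega, ← ix_ix, hx, hp]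
  have hrR : ∀ J ∈ iv (N - k) t₀, al J → cJ J - p - q ∈ iv (N - k) R.1 := by
    intro J hJ h
    have h1 := hbx (2 ^ k * J) (hzN J hJ _ (hrep J)) h
    unfold bx3 at h1
    rw [mem_filter, mem_product] at h1
    exact h1.1.1
  set f : ℤ → ℝ := fun w => ∑ x ∈ iv k p, nv (SfK l K k q x *ᵥ v x w) with hf
  have hf0 : ∀ w, 0 ≤ f w := fun w => sum_nonneg fun x _ => nv_nonneg _
  -- one cell of `x₀`
  have h1 : ∀ J ∈ iv (N - k) t₀, ∑ z ∈ iv k J, (if (c z k - p - q, q, p) ∈ s z k then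
      GF L cB l K (Cv z k) k (c z k - p - q, q, p) else 0) ≤
      4 ^ L * cB ^ 2 * (2 ^ k * L₀ * if al J then ∑ w ∈ iv k (cJ J - p - q), f w else 0) := by
    intro J hJ
    by_cases ha : al J
    · have e1 : ∀ z ∈ iv k J, (if (c z k - p - q, q, p) ∈ s z k then
          GF L cB l K (Cv z k) k (c z k - p - q, q, p) else 0) =
          4 ^ L * cB ^ 2 * ∑ w ∈ iv k (cJ J - p - q), ∑ x ∈ iv k p,
            Z z k x w ^ 2 * nv (SfK l K k q x *ᵥ v x w) := by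
        intro z hz
        have e2 : (c z k - p - q, q, p) ∈ s z k := by
          rw [hcz J z hz, hsz J z hz]
          exact ha
        rw [if_pos e2]
        unfold GF
        rw [hcz J z hz]
        refine congrArg _ (sum_congr rfl fun w hw => sum_congr rfl fun x hx => ?_)
        have e3 : Cv z k w x = Z z k x w • v x w := by
          rw [hcz J z hz] at e2
          exact hC z (hzN J hJ z hz) _ e2 w hw x hx
        rw [e3, mulVec_smul, nv_smul]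
      rw [sum_congr rfl e1, ← mul_sum]
      refine mul_le_mul_of_nonneg_left ?_ (by positivity)
      rw [if_pos ha, sum_comm, mul_sum]
      refine sum_le_sum fun w hw => ?_
      rw [sum_comm, hf, mul_sum]
      refine sum_le_sum fun x hx => ?_
      rw [← sum_mul]
      refine mul_le_mul_of_nonneg_right ?_ (nv_nonneg _)
      have h2 := hZ (2 ^ k * J) (hzN J hJ _ (hrep J)) _ ha w hw x hx
      rw [mem_iv.1 (hrep J), avg_iv] at h2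
      have h3 := mul_le_mul_of_nonneg_left h2 (show (0 : ℝ) ≤ 2 ^ k by positivity)
      rwa [← mul_assoc, mul_inv_cancel₀ (by positivity), one_mul] at h3
    · have e1 : ∀ z ∈ iv k J, (if (c z k - p - q, q, p) ∈ s z k then
          GF L cB l K (Cv z k) k (c z k - p - q, q, p) else 0) = 0 := by
        intro z hz
        rw [if_neg]
        rw [hcz J z hz, hsz J z hz]
        exact ha
      rw [sum_eq_zero e1, if_neg ha]
      simp
  rw [← sum_cells hkN t₀]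
  refine (sum_le_sum h1).trans ?_
  rw [← mul_sum, ← mul_sum]
  refine mul_le_mul_of_nonneg_left (mul_le_mul_of_nonneg_left ?_ (by positivity)) (by positivity)
  have h2 := tie_sum hkN (t₀ := t₀) (r₁ := R.1) (τ := fun J => cJ J - p - q) (P := al)
    (fun J hJ J' hJ' h => ?_) hrR (f := f) hf0
  · have h5 : ∀ J, (if al J then ∑ w ∈ iv k (cJ J - p - q), f w else 0) =
        @ite ℝ (al J) (Classical.propDecidable (al J)) (∑ w ∈ iv k (cJ J - p - q), f w) 0 := by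
      intro J
      by_cases ha : al J
      · rw [if_pos ha, if_pos ha]
      · rw [if_neg ha, if_neg ha]
    rw [sum_congr rfl fun J _ => h5 J]
    refine h2.trans ?_
    rw [hf, sum_comm, mul_sum, mul_sum]
    refine sum_le_sum fun x hx => ?_
    exact pot_Sf (htop x (hpN x hx))
  · have h3 : c (2 ^ k * J) k = c (2 ^ k * J') k := by
      simp only [hcJ] at h
      linarith
    have h4 := hinj _ (hzN J hJ _ (hrep J)) _ (hzN J' hJ' _ (hrep J')) h3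
    rwa [mem_iv.1 (hrep J), mem_iv.1 (hrep J')] at h4

/-- the second mass of the flow on the tree of one point -/
theorem tree_S {l : ℝ} (hl : 0 < l) {G K : ℕ → ℤ → Matrix κ κ ℝ} (h : Tr l N G K) (r : ℤ) :
    ∑ k ∈ Icc 1 N, (2 : ℝ) ^ k * ∑ q ∈ iv (N - k) r,
      (Sf l (K k q) (K (k - 1) (2 * q)) (K (k - 1) (2 * q + 1)) *
        (Sf l (K k q) (K (k - 1) (2 * q)) (K (k - 1) (2 * q + 1)))ᵀ).trace ≤
      2 ^ N * (l⁻¹ * (G N r).trace) := by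
  have h4 := tree_mass2 h (le_refl N) r
  rw [H420.tsum_eq] at h4
  have h5 : ∑ k ∈ Icc 1 N, (2 : ℝ) ^ k * ∑ q ∈ iv (N - k) r,
      (Sf l (K k q) (K (k - 1) (2 * q)) (K (k - 1) (2 * q + 1)) *
        (Sf l (K k q) (K (k - 1) (2 * q)) (K (k - 1) (2 * q + 1)))ᵀ).trace =
      2 ^ N * (l⁻¹ * ∑ k ∈ Icc 1 N, (2 ^ (N - k) : ℝ)⁻¹ *
        ∑ q ∈ Ico (2 ^ (N - k) * r) (2 ^ (N - k) * r + 2 ^ (N - k)),
          l * (Sf l (K k q) (K (k - 1) (2 * q)) (K (k - 1) (2 * q + 1)) *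
        (Sf l (K k q) (K (k - 1) (2 * q)) (K (k - 1) (2 * q + 1)))ᵀ).trace) := by
    rw [mul_sum, mul_sum]
    refine sum_congr rfl fun k hk => ?_
    have e1 : (2 : ℝ) ^ N = 2 ^ (N - k) * 2 ^ k := by
      rw [← pow_add, Nat.sub_add_cancel (mem_Icc.1 hk).2]
    have e2 : iv (N - k) r = Ico (2 ^ (N - k) * r) (2 ^ (N - k) * r + 2 ^ (N - k)) := rfl
    rw [e1, e2, ← mul_sum]
    field_simp
  rw [h5]
  refine mul_le_mul_of_nonneg_left (mul_le_mul_of_nonneg_left (le_trans ?_ h4) (by positivity))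
    (by positivity)
  refine sum_le_sum fun k hk => mul_le_mul_of_nonneg_left (sum_le_sum fun q _ => ?_)
    (by positivity)
  have hk1 := (mem_Icc.1 hk).1
  have hn := h.nd (k := k - 1) (by have := (mem_Icc.1 hk).2; omega) q
  rw [Nat.sub_add_cancel hk1] at hn
  have hKi := hn.pdK.inv.isHermitian
  have hd := hn.herm_dK
  have h6 : (K k q)⁻¹ * Nd.dK (K (k - 1) (2 * q)) (K (k - 1) (2 * q + 1)) *
      (K k q)⁻¹ * G k q * (K k q)⁻¹ * Nd.dK (K (k - 1) (2 * q)) (K (k - 1) (2 * q + 1)) *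
      (K k q)⁻¹ = ((K k q)⁻¹ * Nd.dK (K (k - 1) (2 * q)) (K (k - 1) (2 * q + 1)) * (K k q)⁻¹) *
        G k q * ((K k q)⁻¹ * Nd.dK (K (k - 1) (2 * q)) (K (k - 1) (2 * q + 1)) * (K k q)⁻¹)ᴴ := by
    rw [conjTranspose_mul, conjTranspose_mul, hKi.eq, hd.eq]
    simp only [Matrix.mul_assoc]
  have h7 : 0 ≤ ((K k q)⁻¹ * Nd.dK (K (k - 1) (2 * q)) (K (k - 1) (2 * q + 1)) *
      (K k q)⁻¹ * G k q * (K k q)⁻¹ * Nd.dK (K (k - 1) (2 * q)) (K (k - 1) (2 * q + 1)) *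
      (K k q)⁻¹).trace := by
    rw [h6]
    exact (hn.psG.mul_mul_conjTranspose_same _).trace_nonneg
  have := mul_nonneg hl.le h7
  linarith

/-- **The sum over `x₀` and over the nodes.** -/
theorem flowD_sum (hL : 0 ≤ L₀) (hΛ : 0 ≤ Λ) (hl : 0 < l)
    (hcl : ∀ k x y, ix k x = ix k y → c x k = c y k)
    (hsl : ∀ k x y, ix k x = ix k y → s x k = s y k)
    (hbx : ∀ x₀ ∈ iv N t₀, ∀ k ∈ Icc 1 N, s x₀ k ⊆ bx3 N R k (c x₀ k))
    (hinj : ∀ k ∈ Icc 1 N, ∀ x ∈ iv N t₀, ∀ y ∈ iv N t₀, c x k = c y k → ix k x = ix k y)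
    (hC : ∀ x₀ ∈ iv N t₀, ∀ k ∈ Icc 1 N, ∀ m ∈ s x₀ k, ∀ w ∈ iv k m.1, ∀ x ∈ iv k m.2.2,
      Cv x₀ k w x = Z x₀ k x w • v x w)
    (hZ : ∀ x₀ ∈ iv N t₀, ∀ k ∈ Icc 1 N, ∀ m ∈ s x₀ k, ∀ w ∈ iv k m.1, ∀ x ∈ iv k m.2.2,
      (avg (iv k (ix k x₀)) fun z => Z z k x w ^ 2) ≤ L₀)
    (htop : ∀ x ∈ iv N R.2.2, ∀ ε : κ → ℝ,
      (avg (iv N R.1) fun w => (∑ i, ε i * v x w i) ^ 2) ≤ Λ * ∑ i, ε i ^ 2)
    (hT : ∀ x, Tr l N (G x) (K x))
    (hM : ∑ x ∈ iv N R.2.2, (G x N R.2.1).trace ≤ 2 ^ N * M) :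
    ∑ x₀ ∈ iv N t₀, ∑ k ∈ Icc 1 N, ∑ m ∈ s x₀ k, GF L cB l K (Cv x₀ k) k m ≤
      4 ^ L * 8 ^ N * (cB ^ 2 * L₀ * (Λ / l) * M) := by
  set tr : ℕ → ℤ → ℤ → ℝ := fun k q x => (SfK l K k q x * (SfK l K k q x)ᵀ).trace with htr
  -- one scale
  have h1 : ∀ k ∈ Icc 1 N, ∑ x₀ ∈ iv N t₀, ∑ m ∈ s x₀ k, GF L cB l K (Cv x₀ k) k m ≤
      4 ^ L * cB ^ 2 * (L₀ * (2 ^ N * (Λ *
        ∑ x ∈ iv N R.2.2, 2 ^ k * ∑ q ∈ iv (N - k) R.2.1, tr k q x))) := by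
    intro k hk
    have hkN := (mem_Icc.1 hk).2
    calc ∑ x₀ ∈ iv N t₀, ∑ m ∈ s x₀ k, GF L cB l K (Cv x₀ k) k m
        = ∑ p ∈ iv (N - k) R.2.2, ∑ q ∈ iv (N - k) R.2.1, ∑ x₀ ∈ iv N t₀,
            if (c x₀ k - p - q, q, p) ∈ s x₀ k then
              GF L cB l K (Cv x₀ k) k (c x₀ k - p - q, q, p) else 0 := by
          rw [sum_congr rfl fun x₀ hx => sum_alive (hbx x₀ hx k hk)
            fun m => GF L cB l K (Cv x₀ k) k m, sum_comm]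
          exact sum_congr rfl fun p _ => sum_comm
      _ ≤ ∑ p ∈ iv (N - k) R.2.2, ∑ q ∈ iv (N - k) R.2.1,
            4 ^ L * cB ^ 2 * (2 ^ k * L₀ * (2 ^ N * (Λ * ∑ x ∈ iv k p, tr k q x))) :=
          sum_le_sum fun p hp => sum_le_sum fun q _ =>
            flowD_cell hL hkN (hcl k) (hsl k) (fun x₀ hx => hbx x₀ hx k hk) (hinj k hk)
              (fun x₀ hx => hC x₀ hx k hk) (fun x₀ hx => hZ x₀ hx k hk) htop hp
      _ = 4 ^ L * cB ^ 2 * (L₀ * (2 ^ N * (Λ *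
        ∑ x ∈ iv N R.2.2, 2 ^ k * ∑ q ∈ iv (N - k) R.2.1, tr k q x))) := by
          have e1 : ∀ p q, 4 ^ L * cB ^ 2 * (2 ^ k * L₀ * (2 ^ N * (Λ * ∑ x ∈ iv k p, tr k q x))) =
              4 ^ L * cB ^ 2 * (L₀ * (2 ^ N * (Λ * (2 ^ k * ∑ x ∈ iv k p, tr k q x)))) := by
            intro p q
            ring
          simp only [e1, ← mul_sum]
          congr 1
          congr 1
          congr 1
          congr 1
          congr 1
          rw [← sum_cells hkN R.2.2]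
          refine sum_congr rfl fun p _ => ?_
          rw [sum_comm]
  have h2 : ∑ x₀ ∈ iv N t₀, ∑ k ∈ Icc 1 N, ∑ m ∈ s x₀ k, GF L cB l K (Cv x₀ k) k m ≤
      4 ^ L * cB ^ 2 * (L₀ * (2 ^ N * (Λ *
        ∑ x ∈ iv N R.2.2, ∑ k ∈ Icc 1 N, 2 ^ k * ∑ q ∈ iv (N - k) R.2.1, tr k q x))) := by
    rw [sum_comm, sum_comm (s := iv N R.2.2)]
    simp only [mul_sum (s := Icc 1 N)]
    exact sum_le_sum fun k hk => h1 k hk
  have h3 : ∑ x ∈ iv N R.2.2, ∑ k ∈ Icc 1 N, 2 ^ k * ∑ q ∈ iv (N - k) R.2.1, tr k q x ≤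
      2 ^ N * (l⁻¹ * (2 ^ N * M)) := by
    refine (sum_le_sum fun x _ => tree_S hl (hT x) R.2.1).trans ?_
    rw [← mul_sum, ← mul_sum]
    gcongr
  refine h2.trans ?_
  have h4 : 4 ^ L * cB ^ 2 * (L₀ * (2 ^ N * (Λ * (2 ^ N * (l⁻¹ * (2 ^ N * M)))))) =
      4 ^ L * 8 ^ N * (cB ^ 2 * L₀ * (Λ / l) * M) := by
    rw [show (8 : ℝ) ^ N = 2 ^ N * (2 ^ N * 2 ^ N) by rw [← mul_pow, ← mul_pow]; norm_num]
    rw [div_eq_mul_inv]
    ring
  rw [← h4]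
  gcongr

/-- **`hqF` of `H609.tzX_lab`, every level**: no uniformity, only the cap of the block of `b`. -/
theorem flowD (he : Function.Injective e) (hm : ∀ i, e i ∈ lbs L) (hL : 0 ≤ L₀) (hΛ : 0 ≤ Λ)
    (hl : 0 < l) {b : ℤ → ℕ → ℤ → ℤ → κ → ℝ}
    (capB : ∀ x₀ ∈ iv N t₀, ∀ k ∈ Icc 1 N, ∀ m ∈ s x₀ k,
      CapR L k m.2.1 m.2.2 cB fun lab y x => cu e (b x₀ k y x) lab)
    (hcl : ∀ k x y, ix k x = ix k y → c x k = c y k)
    (hsl : ∀ k x y, ix k x = ix k y → s x k = s y k)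
    (hbx : ∀ x₀ ∈ iv N t₀, ∀ k ∈ Icc 1 N, s x₀ k ⊆ bx3 N R k (c x₀ k))
    (hinj : ∀ k ∈ Icc 1 N, ∀ x ∈ iv N t₀, ∀ y ∈ iv N t₀, c x k = c y k → ix k x = ix k y)
    (hC : ∀ x₀ ∈ iv N t₀, ∀ k ∈ Icc 1 N, ∀ m ∈ s x₀ k, ∀ w ∈ iv k m.1, ∀ x ∈ iv k m.2.2,
      Cv x₀ k w x = Z x₀ k x w • v x w)
    (hZ : ∀ x₀ ∈ iv N t₀, ∀ k ∈ Icc 1 N, ∀ m ∈ s x₀ k, ∀ w ∈ iv k m.1, ∀ x ∈ iv k m.2.2,
      (avg (iv k (ix k x₀)) fun z => Z z k x w ^ 2) ≤ L₀)
    (htop : ∀ x ∈ iv N R.2.2, ∀ ε : κ → ℝ,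
      (avg (iv N R.1) fun w => (∑ i, ε i * v x w i) ^ 2) ≤ Λ * ∑ i, ε i ^ 2)
    (hT : ∀ x, Tr l N (G x) (K x))
    (hM : ∑ x ∈ iv N R.2.2, (G x N R.2.1).trace ≤ 2 ^ N * M) {cC : ℝ} (hcC : 0 < cC) (ee : ℕ) :
    ∑ x₀ ∈ iv N t₀, (cC / 2 ^ (ee - 1)) ^ 2 * ∑ k ∈ Icc 1 N, ∑ m ∈ s x₀ k,
      (phi (gramC (lv cC ee * (4 ^ (k + L))⁻¹)
          (bl (k + L) (encR L fun lab w x => cu e (Cv x₀ k w x) lab) m.1 m.2.2)) *
        (YF L l e K (b x₀) (k + L) m * (YF L l e K (b x₀) (k + L) m)ᵀ)).trace ≤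
      4 ^ L * 8 ^ N * (cB ^ 2 * L₀ * (Λ / l) * M) := by
  refine le_trans ?_ (flowD_sum hL hΛ hl hcl hsl hbx hinj hC hZ htop hT hM)
  refine sum_le_sum fun x₀ hx => ?_
  rw [mul_sum]
  refine sum_le_sum fun k hk => ?_
  rw [mul_sum]
  refine sum_le_sum fun m hm' => ?_
  exact flowD_phi he hm (mem_Icc.1 hk).1 (mem_Icc.1 hk).2 hT (capB x₀ hx k hk m hm') _ hcC ee

end

end Vale.Agent.P141.H938
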